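import Crest.Agent.N250.A.Good

/-!
# Row 250, block A (helper89): averaging the near part of a heat potential over the time
-/

set_option autoImplicit false
open MeasureTheory Set Filter Topology Metric
open scoped ContDiff InnerProductSpace ENNReal NNReal
open Crest.GeometryTopology.MCF

noncomputable section

namespace Crest.Agent.N250.At

lemma gau_symm (y x : E) (s : ℝ) : gau y s x = gau x s y := by
  unfold gau; rw [norm_sub_rev]

lemma meas_gau : Measurable fun q : E × ℝ × E => gau q.1 q.2.1 q.2.2 := by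
  unfold gau; fun_prop

/-- the explicit bound of the slice integral of the kernel, as a function of the lag -/
def lagB (a b r T h : ℝ) : ℝ≥0∞ :=
  (Ioc 0 (r ^ 2)).indicator (fun _ => ENNReal.ofReal a) h +
    (Ioc (r ^ 2) T).indicator (fun h => ENNReal.ofReal (b / h)) h

lemma meas_lagB (a b r T : ℝ) : Measurable (lagB a b r T) := by
  unfold lagB
  refine Measurable.add (measurable_const.indicator measurableSet_Ioc)
    (Measurable.indicator ?_ measurableSet_Ioc)
  fun_prop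

lemma int_lagB {a b r T : ℝ} (ha : 0 ≤ a) (hb : 0 ≤ b) (hr : 0 < r) (hT : r ^ 2 ≤ T) :
    ∫⁻ h, lagB a b r T h = ENNReal.ofReal (a * r ^ 2 + b * Real.log (T / r ^ 2)) := by
  have hr2 : 0 < r ^ 2 := by positivity
  have hl : 0 ≤ Real.log (T / r ^ 2) := Real.log_nonneg (by rw [le_div_iff₀ hr2]; linarith)
  unfold lagB
  rw [lintegral_add_left (measurable_const.indicator measurableSet_Ioc),
    lintegral_indicator measurableSet_Ioc, lintegral_indicator measurableSet_Ioc,
    setLIntegral_const, Real.volume_Ioc, sub_zero, ← ENNReal.ofReal_mul ha,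
    ENNReal.ofReal_add (by positivity) (by positivity)]
  congr 1
  have hc : ContinuousOn (fun h : ℝ => b / h) (Icc (r ^ 2) T) :=
    continuousOn_const.div continuousOn_id fun h hh => (hr2.trans_le hh.1).ne'
  have hi : IntegrableOn (fun h : ℝ => b / h) (Ioc (r ^ 2) T) :=
    (hc.integrableOn_compact isCompact_Icc).mono_set Ioc_subset_Icc_self
  rw [← ofReal_integral_eq_lintegral_ofReal hi]
  · congr 1
    rw [← intervalIntegral.integral_of_le hT]
    simp only [div_eq_mul_inv b]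
    rw [intervalIntegral.integral_const_mul, integral_inv_of_pos hr2 (hr2.trans_le hT)]
  · filter_upwards [ae_restrict_mem measurableSet_Ioc] with h hh
    exact div_nonneg hb (hr2.trans hh.1).le

/-- the part of the potential coming from `Q` -/
def nearP (ν : Measure ST) (σ : ℝ) (Q : Set ST) (t : ℝ) (y : E) : ℝ≥0∞ :=
  ∫⁻ q in Q ∩ {q | q.2 < t}, ENNReal.ofReal (gau y (t - q.2 + σ) q.1) ∂ν

lemma meas_nearP (ν : Measure ST) [SFinite ν] (σ : ℝ) (Q : Set ST) (t : ℝ) :
    Measurable (nearP ν σ Q t) := by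
  unfold nearP
  refine Measurable.lintegral_prod_right (f := fun (y : E) (q : ST) =>
    ENNReal.ofReal (gau y (t - q.2 + σ) q.1)) ?_
  refine ENNReal.measurable_ofReal.comp ?_
  exact meas_gau.comp (f := fun z : E × ST => (z.1, t - z.2.2 + σ, z.2.1)) (by fun_prop)

/-- averaging over the time: at some time of `(t₁, t₂)` the near part is small off a small set -/
theorem near : ∃ C : ℝ, 1 ≤ C ∧ ∀ (μ : ℝ → Measure E) (ν : Measure ST) [IsFiniteMeasure ν]
    (Λ σ κ r R T t₁ t₂ m : ℝ) (Q : Set ST) (p : E), 0 ≤ Λ → 0 ≤ σ → 0 ≤ κ → 0 < r → 0 < R →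
    r ^ 2 ≤ T → t₁ < t₂ → 0 < m → (∀ t, SFinite (μ t)) →
    (∀ t y ρ, 0 < ρ → μ t (ball y ρ) ≤ ENNReal.ofReal (Λ * ρ ^ 2)) → MeasurableSet Q →
    ν Q ≤ ENNReal.ofReal κ → (∀ q ∈ Q, t₂ - T ≤ q.2) →
    ∃ t ∈ Ioo t₁ t₂, μ t (ball p R ∩ {y | ENNReal.ofReal m ≤ nearP ν σ Q t y}) ≤
      ENNReal.ofReal (κ * Λ * (C * r ^ 2 + R ^ 2 * Real.log (T / r ^ 2)) / ((t₂ - t₁) * m)) := by
  obtain ⟨C, hC, hg⟩ := A.gau_ar
  refine ⟨C, hC, fun μ ν _ Λ σ κ r R T t₁ t₂ m Q p hΛ hσ hκ hr hR hT ht hm hs har hQ hν hq => ?_⟩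
  have hr2 : 0 < r ^ 2 := by positivity
  have hl : 0 ≤ Real.log (T / r ^ 2) := Real.log_nonneg (by rw [le_div_iff₀ hr2]; linarith)
  have hpi := Real.pi_gt_three
  -- slice integrals
  have h1 : ∀ t ∈ Ioo t₁ t₂, ∫⁻ y in ball p R, nearP ν σ Q t y ∂μ t ≤
      ∫⁻ q in Q, lagB (C * Λ) (Λ * R ^ 2) r T (t - q.2) ∂ν := by
    intro t ht'
    have := hs t
    have hm2 : MeasurableSet (Q ∩ {q : ST | q.2 < t}) :=
      hQ.inter (measurableSet_lt measurable_snd measurable_const)
    unfold nearP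
    rw [lintegral_lintegral_swap]
    swap
    · refine (ENNReal.measurable_ofReal.comp ?_).aemeasurable
      exact meas_gau.comp (f := fun z : E × ST => (z.1, t - z.2.2 + σ, z.2.1)) (by fun_prop)
    refine le_trans ?_ (lintegral_mono_set (inter_subset_left (t := {q : ST | q.2 < t})))
    refine setLIntegral_mono' hm2 fun q hq' => ?_
    have h0 : 0 < t - q.2 := sub_pos.2 hq'.2
    have h0' : 0 < t - q.2 + σ := by linarith
    unfold lagB
    by_cases hc : t - q.2 ≤ r ^ 2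
    · rw [indicator_of_mem (show t - q.2 ∈ Ioc 0 (r ^ 2) from ⟨h0, hc⟩)]
      refine le_trans ?_ le_self_add
      refine (setLIntegral_le_lintegral _ _).trans ?_
      simp only [gau_symm _ q.1]
      exact hg (μ t) Λ q.1 _ h0' hΛ fun ρ hρ => har t q.1 ρ hρ
    · push Not at hc
      have hT' : t - q.2 ≤ T := by have := hq q hq'.1; have := ht'.2; linarith
      rw [indicator_of_mem (show t - q.2 ∈ Ioc (r ^ 2) T from ⟨hc, hT'⟩)]
      refine le_trans ?_ le_add_self
      calc ∫⁻ y in ball p R, ENNReal.ofReal (gau y (t - q.2 + σ) q.1) ∂μ t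
          ≤ ∫⁻ _ in ball p R, ENNReal.ofReal (t - q.2)⁻¹ ∂μ t := by
            refine lintegral_mono fun y => ENNReal.ofReal_le_ofReal ((A.gau_le h0' _ _).trans ?_)
            exact inv_anti₀ h0 (by nlinarith)
        _ ≤ ENNReal.ofReal (t - q.2)⁻¹ * ENNReal.ofReal (Λ * R ^ 2) := by
            rw [setLIntegral_const]; gcongr; exact har t p R hR
        _ = ENNReal.ofReal (Λ * R ^ 2 / (t - q.2)) := by
            rw [← ENNReal.ofReal_mul (inv_nonneg.2 h0.le)]; congr 1; field_simp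
  set I : ℝ := κ * Λ * (C * r ^ 2 + R ^ 2 * Real.log (T / r ^ 2)) with hI
  have hI0 : 0 ≤ I := by positivity
  have h2 : ∫⁻ t in Ioo t₁ t₂, ∫⁻ q in Q, lagB (C * Λ) (Λ * R ^ 2) r T (t - q.2) ∂ν ≤
      ENNReal.ofReal I := by
    refine (setLIntegral_le_lintegral _ _).trans ?_
    rw [lintegral_lintegral_swap]
    swap
    · exact ((meas_lagB _ _ _ _).comp (f := fun z : ℝ × ST => z.1 - z.2.2)
        (by fun_prop)).aemeasurable
    have e : ∀ q : ST, ∫⁻ t, lagB (C * Λ) (Λ * R ^ 2) r T (t - q.2) =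
        ENNReal.ofReal (C * Λ * r ^ 2 + Λ * R ^ 2 * Real.log (T / r ^ 2)) := fun q => by
      rw [lintegral_sub_right_eq_self (lagB (C * Λ) (Λ * R ^ 2) r T) q.2,
        int_lagB (by positivity) (by positivity) hr hT]
    simp only [e]
    rw [setLIntegral_const]
    calc _ ≤ ENNReal.ofReal (C * Λ * r ^ 2 + Λ * R ^ 2 * Real.log (T / r ^ 2)) *
          ENNReal.ofReal κ := by gcongr
      _ = _ := by rw [← ENNReal.ofReal_mul (by positivity), hI]; congr 1; ring
  have ht0 : 0 < t₂ - t₁ := sub_pos.2 ht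
  obtain ⟨t, ht', h3⟩ : ∃ t ∈ Ioo t₁ t₂, ∫⁻ y in ball p R, nearP ν σ Q t y ∂μ t ≤
      ENNReal.ofReal (I / (t₂ - t₁)) := by
    have hv : volume (Ioo t₁ t₂) = ENNReal.ofReal (t₂ - t₁) := Real.volume_Ioo
    obtain ⟨t, ht', h3⟩ := exists_le_setLAverage (μ := volume) (s := Ioo t₁ t₂)
      (f := fun t => ∫⁻ q in Q, lagB (C * Λ) (Λ * R ^ 2) r T (t - q.2) ∂ν)
      (by rw [hv]; simpa using ht) (by rw [hv]; exact ENNReal.ofReal_ne_top)
      (Measurable.lintegral_prod_right' (f := fun z : ℝ × ST =>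
        lagB (C * Λ) (Λ * R ^ 2) r T (z.1 - z.2.2)) ((meas_lagB _ _ _ _).comp
          (f := fun z : ℝ × ST => z.1 - z.2.2) (by fun_prop))).aemeasurable
    refine ⟨t, ht', (h1 t ht').trans (h3.trans ?_)⟩
    rw [setLAverage_eq, hv, ENNReal.ofReal_div_of_pos ht0]
    gcongr
  refine ⟨t, ht', ?_⟩
  have h4 := mul_meas_ge_le_lintegral₀ (μ := (μ t).restrict (ball p R))
    (meas_nearP ν σ Q t).aemeasurable (ENNReal.ofReal m)
  rw [Measure.restrict_apply' measurableSet_ball, inter_comm] at h4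
  have hm' : ENNReal.ofReal m ≠ 0 := by simpa using hm
  have h5 := h4.trans h3
  rw [mul_comm, ← ENNReal.le_div_iff_mul_le (Or.inl hm') (Or.inl ENNReal.ofReal_ne_top)] at h5
  refine h5.trans (le_of_eq ?_)
  rw [← ENNReal.ofReal_div_of_pos hm, div_div]

end Crest.Agent.N250.At

end
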